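import Vale.Agent.P184Z.Out.Fin
import Vale.Agent.P184Z.Arith
import Vale.Agent.P184.R3.UDefs

/-!
# The conjecture for all groups
-/

noncomputable section

namespace Vale.Agent.P184Z.Out

open Vale.Agent.P184.H38

universe u

theorem natAt {X : Type u} {M : ℕ} [NeZero M] {g : Geo X M} {P : Sp} {η0 η : ℝ}
    (κ : Kit M η0 η) (C : Type) [Fintype C] (hP : Ok g P) : NatAt g P κ C where
  adm := fun _ p _ hl => thp_adm κ hP p hl
  face := fun _ p lab i _ => thp_face κ hP p lab i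
  rot := fun _ p lab _ => thp_rot κ hP p lab
  iso := fun _ p lab lab' e _ _ h1 h2 h3 => thp_iso κ e h1 h2 p lab lab' h3
  loc := fun _ p => by
    obtain ⟨Y, hY⟩ := thp_loc (C := C) κ hP p
    exact ⟨Y, fun lab lab' _ _ h => hY lab' lab h⟩

theorem prod_sc_le {X : Type u} {M : ℕ} (g : Geo X M) {N : ℕ} (p : Fin (N + 1) → X)
    (l : Fin (N + 1) → ℝ) (h1 : ∀ i, 1 ≤ l i) (h2 : ∀ i, len g p i ≤ l i) :
    ∏ a, sc g p a ≤ ∏ i, l i := by
  rw [Fin.prod_univ_castSucc]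
  have h3 : ∏ a, sc g p a ≤ ∏ a : Fin N, l a.castSucc :=
    Finset.prod_le_prod (fun a _ => zero_le_one.trans (le_max_left _ _))
      fun a _ => max_le (h1 _) (h2 _)
  exact h3.trans (le_mul_of_one_le_right
    (Finset.prod_nonneg fun a _ => zero_le_one.trans (h1 _)) (h1 _))

theorem pow_form (j : ℕ) (a : ℝ) :
    Real.exp (5 * (((2 * j + 2 : ℕ) : ℝ) + 1)) * a ^ (2 * j + 2) =
      Real.exp 5 * (Real.exp 10 * a ^ 2) ^ (j + 1) := by
  have h1 : 5 * (((2 * j + 2 : ℕ) : ℝ) + 1) = 5 + ((j + 1 : ℕ) : ℝ) * 10 := by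
    push_cast
    ring
  rw [h1, Real.exp_add, Real.exp_nat_mul, mul_pow, ← pow_mul]
  ring_nf

theorem core : Core.{u} := by
  intro b hb
  refine ⟨Real.exp 10 * 25, fun L0 δ hL0 hδ => ?_⟩
  have he : 0 < Real.exp 10 := Real.exp_pos _
  set x : ℝ := min 1 (δ / (Real.exp 10 * 16)) with hx
  have hx0 : 0 < x := lt_min one_pos (by positivity)
  have hx1 : x ≤ 1 := min_le_left _ _
  have hx2 : Real.exp 10 * (4 * √x) ^ 2 ≤ δ := by
    rw [mul_pow, Real.sq_sqrt hx0.le]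
    have h1 : x ≤ δ / (Real.exp 10 * 16) := min_le_right _ _
    rw [le_div_iff₀ (by positivity)] at h1
    linarith
  have hx3 : 4 * √x ≤ 5 := by
    have := Real.sqrt_le_one.2 hx1
    linarith
  obtain ⟨γ, hγ, h8, h⟩ := main_asym.{u} b x L0 hb hx0 hx1 hL0
  have hγ1 : (1 : ℝ) ≤ γ := by exact_mod_cast hγ
  refine ⟨spOf b L0 γ, rfl, ?_, h8, fun M _ C _ => ?_⟩
  · change 1 ≤ 48 * L0 * (γ : ℝ) ^ 4
    have := one_le_pow₀ (n := 4) hγ1
    nlinarith
  obtain ⟨N0, h⟩ := h M C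
  refine ⟨Real.exp 5, 0, fun N1 => ?_⟩
  obtain ⟨h16, h⟩ := h (2 * (N0 + N1) + 2) (by omega)
  set j := N0 + N1 with hj
  obtain ⟨κ⟩ := exists_kit (M := M) (η0 := (γ : ℝ) ^ 4 / (((2 * j + 2 : ℕ) : ℝ) + 1))
    (η := (γ : ℝ) ^ 12 / (((2 * j + 2 : ℕ) : ℝ) + 1)) (Nat.pos_of_ne_zero (NeZero.ne M))
    (by positivity)
    (div_le_div_of_nonneg_right (pow_le_pow_right₀ hγ1 (by norm_num)) (by positivity)) h16
  refine ⟨j, by omega, _, _, κ, fun X g hP => ⟨natAt κ C hP, ?_, ?_⟩⟩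
  · obtain ⟨B, hB⟩ := crude_thp κ (2 * j + 1) C hP
    exact ⟨B, fun p lab hl => hB lab hl p⟩
  · intro p lab l hl h1 h2 t ht
    refine (h X g κ lab hP hl p t ht).trans ?_
    have h3 := prod_sc_le g p l h1 h2
    have h4 : 0 ≤ ∏ a, sc g p a :=
      Finset.prod_nonneg fun a _ => zero_le_one.trans (le_max_left _ _)
    have h5 : Real.exp (5 * (((2 * j + 2 : ℕ) : ℝ) + 1)) *
        (if ∑ i, len g p i ≤ (((2 * j + 2 : ℕ) : ℝ) + 1) * L0 then (4 * √x) ^ (2 * j + 2)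
          else 5 ^ (2 * j + 2)) ≤ Real.exp 5 *
        (if ∑ i, l i ≤ (2 * (j : ℝ) + 3) * L0 then δ else Real.exp 10 * 25) ^ (j + 1) := by
      by_cases h6 : ∑ i, l i ≤ (2 * (j : ℝ) + 3) * L0
      · have h7 : ∑ i, len g p i ≤ (((2 * j + 2 : ℕ) : ℝ) + 1) * L0 := by
          refine (Finset.sum_le_sum fun i _ => h2 i).trans (h6.trans (le_of_eq ?_))
          push_cast
          ring
        rw [if_pos h6, if_pos h7, pow_form]
        exact mul_le_mul_of_nonneg_left (pow_le_pow_left₀ (by positivity) hx2 _) (by positivity)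
      · have h7 : (if ∑ i, len g p i ≤ (((2 * j + 2 : ℕ) : ℝ) + 1) * L0 then
            (4 * √x) ^ (2 * j + 2) else 5 ^ (2 * j + 2)) ≤ (5 : ℝ) ^ (2 * j + 2) := by
          split_ifs
          · exact pow_le_pow_left₀ (by positivity) hx3 _
          · exact le_rfl
        rw [if_neg h6]
        refine (mul_le_mul_of_nonneg_left h7 (Real.exp_pos _).le).trans (le_of_eq ?_)
        rw [pow_form]
        norm_num
    rw [mul_assoc, pow_zero, mul_one, mul_comm]
    refine mul_le_mul h5 h3 h4 (mul_nonneg (Real.exp_pos _).le (pow_nonneg ?_ _))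
    split_ifs
    · exact hδ.le
    · positivity

/-- The conjecture for all groups. -/
theorem bass (G : Type u) [Group G] : Vale.Agent.P184.L1Bass G := bass_of_core core G

/-- The conjecture for all groups, with the definitions of `Un`. -/
theorem bassUn (G : Type u) [Group G] : Vale.Agent.P184.Un.L1Bass G := fun q e he =>
  bass G q e ⟨he.1, fun i j g => congrFun (congrFun (congrFun he.2 i) j) g⟩

end Vale.Agent.P184Z.Out
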