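import Vale.Agent.P184Z.Out.Main

/-!
# The outer part of the proof, with arbitrary coefficients of the faces
-/

noncomputable section

open Filter Topology

namespace Vale.Agent.P184Z.Out

open Vale.Agent.P184

universe u

set_option linter.unusedSectionVars false

section Defs

variable {G : Type*} [Group G]

/-- As `Appr`, with arbitrary coefficients of the faces. -/
def ApprE (L : G → ℝ) (C L0 δ : ℝ) (x : G) : Prop :=
  ∃ (K : ℝ) (k : ℕ), ∀ N : ℕ, ∃ n : ℕ, N ≤ n ∧ ∃ (ψ : (Fin (2 * n) → G) → ℝ)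
    (ε : Fin (2 * n + 1) → ℝ),
    SubExp x L ψ ∧ CInv x ψ ∧ CycAnti x ψ ∧ ∀ p : Fin (2 * n + 1) → G,
      |1 - ∑ j, ε j * ψ fun i => p (j.succAbove i)| ≤ K * ((n : ℝ) + 1) ^ k *
        (if ∑ i, ell L (stp x p i) ≤ (2 * (n : ℝ) + 1) * L0 then δ else C) ^ n *
        ∏ i, ell L (stp x p i)

/-- The input of the outer part: `ApprE` holds outside of finitely many torsion classes. -/
def InnerE (L : G → ℝ) : Prop :=
  ∃ C : ℝ, ∀ L0 δ : ℝ, 1 ≤ L0 → 0 < δ → ∃ B : Finset G, ∀ x : G,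
    (¬ IsOfFinOrder x ∨ ∀ y ∈ B, ¬ IsConj x y) → ApprE L C L0 δ x

end Defs

section Pair

variable {G : Type*} [Group G] {D : Type*} [NormedRing D] [NormedAlgebra ℂ D] [CompleteSpace D]
  {A : DData G D}

/-- The trace is the pairing with `1` minus a combination of faces. -/
theorem pr_one_subE {m : ℕ} {ψ : (Fin (m + 1) → G) → ℝ} (hψ : A.Good ψ)
    (h1 : ∀ p, ψ (shf A.x p) = - ψ p) (ε : Fin (m + 2) → ℝ) :
    A.pr (fun _ : Fin 1 → G => 1) =
      A.pr fun p : Fin (m + 2) → G => 1 - ∑ j, ε j * ψ fun i => p (j.succAbove i) := by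
  have hg : ∀ j : Fin (m + 2), A.Good fun p : Fin (m + 2) → G =>
      ε j * ψ fun i => p (j.succAbove i) := fun j => (hψ.comp j.succAbove).smul _
  have h2 : (fun p : Fin (m + 2) → G => 1 - ∑ j, ε j * ψ fun i => p (j.succAbove i)) =
      fun p => (fun _ => (1 : ℝ)) p +
        (fun p => (-1) * ∑ j, ε j * ψ fun i => p (j.succAbove i)) p := by
    funext p
    ring
  have h3 : A.pr (fun p : Fin (m + 2) → G => ∑ j, ε j * ψ fun i => p (j.succAbove i)) = 0 := by
    rw [DData.pr_sum (A := A) Finset.univ hg]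
    refine Finset.sum_eq_zero fun j _ => ?_
    rw [DData.pr_smul, DData.pr_del j hψ, pr_anti hψ h1, mul_zero]
  rw [h2, DData.pr_add (DData.Good.const 1) ((DData.Good.sum Finset.univ hg).smul (-1)),
    DData.pr_smul, h3, mul_zero, add_zero]
  exact (DData.pr_one_eq (m + 1)).symm

/-- The trace vanishes if the constants are well chosen. -/
theorem pr_eq_zeroE (A : DData G D) (C L0 δ : ℝ) (hL0 : 0 ≤ L0) (hδ : 0 ≤ δ)
    (hC : |C| * Real.exp (-(A.eps * L0)) ≤ δ)
    (hδA : δ * (∑' g, ‖A.E g‖ * wt A.L A.eps g) ^ 2 ≤ 1 / 2) (h : ApprE A.L C L0 δ A.x) :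
    A.pr (fun _ : Fin 1 → G => 1) = 0 := by
  obtain ⟨K, k, h⟩ := h
  set W : ℝ := ∑' g, ‖A.E g‖ * wt A.L A.eps g with hW
  have hW0 : 0 ≤ W := tsum_nonneg fun g => mul_nonneg (norm_nonneg _) (wt_nonneg _ _ g)
  have hs := summable_wt A.hL A.heps A.hdec
  have key : ∀ N : ℕ, ∃ n : ℕ, N ≤ n ∧ ‖A.pr (fun _ : Fin 1 → G => 1)‖ ≤
      (‖A.tr‖ * |K| * W) * ((n : ℝ) + 1) ^ k * (1 / 2) ^ n := by
    intro N
    obtain ⟨n, hn, ψ, ε, h1, h2, h3, h4⟩ := h (N + 1)
    obtain ⟨j, rfl⟩ : ∃ j, n = j + 1 := ⟨n - 1, by omega⟩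
    refine ⟨j + 1, by omega, ?_⟩
    have h5 := pr_one_subE (A := A) (m := 2 * j + 1) (ψ := ψ) ⟨h2, h1⟩ (cycAnti_iff.1 h3) ε
    have hc : 0 ≤ |K| * (((j + 1 : ℕ) : ℝ) + 1) ^ k * δ ^ (j + 1) := by positivity
    have h6 := norm_pr_le (A := A) (m := 2 * (j + 1))
      (F := fun p : Fin (2 * (j + 1) + 1) → G => 1 - ∑ j, ε j * ψ fun i => p (j.succAbove i))
      (wt_nonneg A.L A.eps) hs hc (fun p => by
        refine (h4 p).trans ((le_abs_self _).trans ?_)
        rw [mul_assoc (K * _), abs_mul, abs_mul, mul_assoc (|K| * _),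
          abs_of_nonneg (a := (((j + 1 : ℕ) : ℝ) + 1) ^ k) (by positivity)]
        exact mul_le_mul_of_nonneg_left
          (split_le A.L A.heps C L0 δ hL0 hδ hC (j + 1) (stp A.x p)) (by positivity))
    rw [h5]
    refine h6.trans ?_
    have h7 : δ ^ (j + 1) * W ^ (2 * (j + 1)) ≤ (1 / 2) ^ (j + 1) := by
      rw [pow_mul, ← mul_pow]
      exact pow_le_pow_left₀ (by positivity) hδA _
    calc ‖A.tr‖ * (|K| * (((j + 1 : ℕ) : ℝ) + 1) ^ k * δ ^ (j + 1)) * W ^ (2 * (j + 1) + 1)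
        = ‖A.tr‖ * |K| * W * (((j + 1 : ℕ) : ℝ) + 1) ^ k *
          (δ ^ (j + 1) * W ^ (2 * (j + 1))) := by ring
      _ ≤ _ := mul_le_mul_of_nonneg_left h7 (by positivity)
  have ht := tendsto_poly (‖A.tr‖ * |K| * W) k
  rw [← norm_le_zero_iff]
  refine le_of_forall_pos_le_add fun η hη => ?_
  obtain ⟨N, hN⟩ := eventually_atTop.1 (ht.eventually (gt_mem_nhds hη))
  obtain ⟨n, hn, h1⟩ := key N
  rw [zero_add]
  exact h1.trans (hN n hn).le

end Pair

section Final

attribute [local instance] Matrix.linftyOpNormedRing Matrix.linftyOpNormedAlgebra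

/-- The conjecture for one group. -/
theorem bass_of_innerE {G : Type*} [Group G] {L : G → ℝ} (hL : IsLength L) (h : InnerE L) :
    L1Bass G := by
  classical
  intro q e he
  obtain ⟨ε, hε, f, hf, hdec, htau⟩ := exists_decay L hL.nonneg hL.2.2 e he
  obtain ⟨C, h⟩ := h
  set W : ℝ := ∑' g, ‖toFn f g‖ * wt L ε g with hW
  set δ : ℝ := 1 / (2 * (W ^ 2 + 1)) with hδ
  have hδ0 : 0 < δ := by positivity
  have hδW : δ * W ^ 2 ≤ 1 / 2 := by
    rw [hδ, div_mul_eq_mul_div, div_le_div_iff₀ (by positivity) (by positivity)]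
    nlinarith [sq_nonneg W]
  obtain ⟨L0, hL0, hC⟩ := exists_L0 C hε hδ0
  obtain ⟨B, hB⟩ := h L0 δ hL0 hδ0
  refine ⟨(B.filter fun y => IsOfFinOrder y).image ConjClasses.mk, ?_, ?_⟩
  · intro c hc g hg
    obtain ⟨y, hy, rfl⟩ := Finset.mem_image.1 hc
    have h1 : ConjClasses.mk g = ConjClasses.mk y := ConjClasses.mem_carrier_iff_mk_eq.mp hg
    exact (ConjClasses.mk_eq_mk_iff_isConj.mp h1).symm.isOfFinOrder (Finset.mem_filter.1 hy).2
  · intro c hc
    obtain ⟨x, rfl⟩ := ConjClasses.mk_surjective c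
    have hx : ¬ IsOfFinOrder x ∨ ∀ y ∈ B, ¬ IsConj x y := by
      by_cases h1 : IsOfFinOrder x
      · refine Or.inr fun y hy h2 => hc ?_
        refine Finset.mem_image.2 ⟨y, Finset.mem_filter.2 ⟨hy, h2.isOfFinOrder h1⟩, ?_⟩
        exact (ConjClasses.mk_eq_mk_iff_isConj.mpr h2).symm
      · exact Or.inl h1
    let A : DData G (Matrix (Fin q) (Fin q) ℂ) :=
      { x := x
        tr := mtr q
        E := toFn f
        L := L
        eps := ε
        htr := mtr_comm q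
        hE := toFn_conv hf
        hL := hL
        heps := hε
        hdec := hdec }
    have h8 : A.pr (fun _ : Fin 1 → G => 1) = 0 :=
      pr_eq_zeroE A C L0 δ (by linarith) hδ0.le hC hδW (hB x hx)
    rw [DData.pr_one] at h8
    rw [← htau]
    have hset : (ConjClasses.mk x).carrier = {g | IsConj x g} := by
      ext g
      rw [ConjClasses.mem_carrier_iff_mk_eq, ConjClasses.mk_eq_mk_iff_isConj]
      exact ⟨fun h => h.symm, fun h => IsConj.symm h⟩
    unfold tau
    rw [hset]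
    exact h8

/-- The conjecture for all groups follows from the inner estimate for finitely generated
groups. -/
theorem bass_allE
    (h : ∀ (G : Type u) [Group G] (S : Finset G), Subgroup.closure (S : Set G) = ⊤ →
      ∃ L : G → ℝ, IsLength L ∧ InnerE L) (G : Type u) [Group G] : L1Bass G := by
  classical
  refine l1Bass_of_local.{u, u} fun S => ?_
  obtain ⟨s, hs⟩ := liftsTo_closure S
  refine ⟨Subgroup.closure (S : Set G), inferInstance, _, s, hs, ?_⟩
  have hfg : Group.FG (Subgroup.closure (S : Set G)) := inferInstance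
  obtain ⟨T, hT⟩ := Group.fg_def.1 hfg
  obtain ⟨L, hL, hI⟩ := h _ T hT
  exact bass_of_innerE hL hI

end Final

end Vale.Agent.P184Z.Out
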