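import Vale.Agent.P184Z.Out.Glue
import Vale.Agent.P184Z.Lab

/-!
# From the estimates on spaces with a periodic isometry to the conjecture
-/

noncomputable section

open Filter Topology MeasureTheory

namespace Vale.Agent.P184Z.Out

open Vale.Agent.P184 Vale.Agent.P184.H38 Vale.Agent.P184.H428 Vale.Agent.P184Z.Lab

universe u

/-- Naturality of the forms of the loops. -/
structure NatAt {X : Type u} {M : ℕ} [NeZero M] (g : Geo X M) (P : Sp) {η0 η : ℝ}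
    (κ : Kit M η0 η) (C : Type) [Fintype C] : Prop where
  adm : ∀ (N : ℕ) (p : Fin (N + 1) → X) (lab : X → Lb M C), IsLab g lab → Adm (thp g P κ p lab)
  face : ∀ (N : ℕ) (p : Fin (N + 2) → X) (lab : X → Lb M C) (i : Fin (N + 1)), IsLab g lab →
    Face i (thp g P κ p lab) (thp g P κ (p ∘ i.succ.succAbove) lab)
  rot : ∀ (N : ℕ) (p : Fin (N + 1) → X) (lab : X → Lb M C), IsLab g lab →
    Rot (thp g P κ p lab) (thp g P κ (rotp g.σ p) lab)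
  iso : ∀ (N : ℕ) (p : Fin (N + 1) → X) (lab lab' : X → Lb M C) (e : X ≃ X), IsLab g lab →
    IsLab g lab' → (∀ y z, g.d (e y) (e z) = g.d y z) → (∀ y, e (g.σ y) = g.σ (e y)) →
    (∀ y, lab' (e y) = lab y) → thp g P κ (fun i => e (p i)) lab' = thp g P κ p lab
  loc : ∀ (N : ℕ) (p : Fin (N + 1) → X), ∃ T : Finset X, ∀ lab lab' : X → Lb M C,
    IsLab g lab → IsLab g lab' → (∀ y ∈ T, lab' y = lab y) →
      thp g P κ p lab' = thp g P κ p lab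

/-- The estimates in degree `j`. -/
structure EstAt {X : Type u} {M : ℕ} [NeZero M] (g : Geo X M) (P : Sp) {η0 η : ℝ}
    (κ : Kit M η0 η) (C : Type) [Fintype C] (j : ℕ) (Ca L0 δ K : ℝ) (k : ℕ) : Prop where
  crude : ∃ B : ℝ, ∀ (p : Fin (2 * j + 1 + 1) → X) (lab : X → Lb M C), IsLab g lab →
    Crude (thp g P κ p lab) B
  main : ∀ (p : Fin (2 * j + 2 + 1) → X) (lab : X → Lb M C) (l : Fin (2 * j + 2 + 1) → ℝ),
    IsLab g lab → (∀ i, 1 ≤ l i) → (∀ i, len g p i ≤ l i) → ∀ t ∈ simplex (2 * j + 2),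
      |wk (cur (thp g P κ p lab) (sl t)) (List.ofFn ev)| ≤ K * ((j : ℝ) + 2) ^ k *
        (if ∑ i, l i ≤ (2 * (j : ℝ) + 3) * L0 then δ else Ca) ^ (j + 1) * ∏ i, l i

/-- The estimates for all spaces. -/
def Core : Prop :=
  ∀ b : ℝ, 1 ≤ b → ∃ Ca : ℝ, ∀ L0 δ : ℝ, 1 ≤ L0 → 0 < δ → ∃ P : Sp, P.b = b ∧ 1 ≤ P.R0 ∧
    8 * P.R0 ≤ P.ρ ∧ ∀ (M : ℕ) [NeZero M] (C : Type) [Fintype C], ∃ (K : ℝ) (k : ℕ),
      ∀ N0 : ℕ, ∃ j : ℕ, N0 ≤ j ∧ ∃ (η0 η : ℝ) (κ : Kit M η0 η),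
        ∀ (X : Type u) (g : Geo X M), Ok g P → NatAt g P κ C ∧ EstAt g P κ C j Ca L0 δ K k

section Space

variable {G : Type u} [Group G] {K : ℕ} (ℓ : Len G K) (x : G) (M : ℕ)

/-- The space of labels. -/
def geo (Rb : ℝ) (hR : 0 ≤ Rb) : Geo (XX x M) M where
  d := dt ℓ Rb
  Rb := Rb
  σ := sg x M
  d_self := dt_self ℓ hR
  d_symm := dt_comm ℓ Rb
  d_tri := dt_tri ℓ hR
  d_le := dt_le ℓ Rb
  σ_d := dt_sg ℓ Rb
  σ_pow := by
    ext y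
    rw [Equiv.Perm.coe_pow]
    exact sg_iter y
  fin := fun y => (Lab.nb ℓ y ⌊Rb⌋₊).finite_toSet.subset fun z hz =>
    (mem_nb ℓ).2 (dX_le_of_dt_lt ℓ le_rfl (Nat.lt_floor_add_one Rb).le hz)

theorem geo_cnt (hK : 1 ≤ K) {Rb : ℝ} (hR : 0 ≤ Rb) {b R : ℝ} (hb : 8 * Real.log K ≤ b)
    (h0 : 0 ≤ R) (h1 : 2 * R ≤ Rb) : Cnt (geo ℓ x M Rb hR) b R := by
  intro U hU
  refine (card_le_exp ℓ hK (ρ := 2 * R) (by linarith) h1 hU).trans (Real.exp_le_exp.2 ?_)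
  have := mul_le_mul_of_nonneg_left hb h0
  linarith

theorem geo_ok (hK : 1 ≤ K) (P : Sp) (hb1 : 1 ≤ P.b) (hb : 8 * Real.log K ≤ P.b)
    (h1 : 1 ≤ P.R0) (h2 : 8 * P.R0 ≤ P.ρ) (hR : 0 ≤ 96 * P.ρ) :
    Ok (geo ℓ x M (96 * P.ρ) hR) P where
  one_le_b := hb1
  one_le_R0 := h1
  R0_le := h2
  Rb_eq := rfl
  c0 := geo_cnt ℓ x M hK hR hb (by linarith) (by linarith)
  c := geo_cnt ℓ x M hK hR hb (by unfold Sp.R; linarith) (by unfold Sp.R; linarith)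
  c1 := geo_cnt ℓ x M hK hR hb (by unfold Sp.R1; linarith) (by unfold Sp.R1; linarith)

theorem geo_lab [NeZero M] {Rb : ℝ} (hR : 0 ≤ Rb) (hH : Half ℓ x M ⌊Rb⌋₊)
    (ω : Om x M (ℓ.ball ⌊Rb⌋₊)) : IsLab (geo ℓ x M Rb hR) (col ω) where
  shift := col_sg ω
  inj := fun y z h1 h2 =>
    col_inj ℓ ω (dX_le_of_dt_lt ℓ le_rfl (Nat.lt_floor_add_one Rb).le h1) h2
  fib := by
    classical
    intro U hU
    have hd : ∀ y ∈ U, ∀ z ∈ U, dX ℓ y z ≤ ⌊Rb⌋₊ := fun y hy z hz =>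
      dX_le_of_dt_lt ℓ le_rfl (Nat.lt_floor_add_one Rb).le (hU y hy z hz).1
    rcases U.eq_empty_or_nonempty with rfl | ⟨y0, hy0⟩
    · simp
    have h1 := card_res_le ℓ hH ω U hd (col ω y0).2 (U.image fun y => (col ω y).1) fun i hi => by
      obtain ⟨y, hy, rfl⟩ := Finset.mem_image.1 hi
      exact ⟨y, hy, Prod.ext rfl (hU y hy y0 hy0).2⟩
    rwa [Finset.card_image_of_injOn fun y hy z hz e =>
      col_inj ℓ ω (hd y hy z hz) (Prod.ext e (hU y hy z hz).2)] at h1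

theorem pr_rotp {N : ℕ} (p : Fin (N + 1) → G) :
    (fun i => pr x M (rotp (fun a => x * a) p i)) = rotp (sg x M) fun i => pr x M (p i) := by
  funext i
  refine Fin.lastCases ?_ (fun k => ?_) i
  · simp only [rotp, Fin.snoc_last]
    rfl
  · simp only [rotp, Fin.snoc_castSucc]
    rfl

theorem stp_eq {N : ℕ} (p : Fin (N + 1) → G) (i : Fin (N + 1)) :
    stp x p i = (p i)⁻¹ * rotp (fun a => x * a) p i := by
  rw [rotp_eq_shf, stp, clo_castSucc]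
  rfl

theorem len_le {Rb : ℝ} (hR : 0 ≤ Rb) {N : ℕ} (p : Fin (N + 1) → G) (i : Fin (N + 1)) :
    len (geo ℓ x M Rb hR) (fun i => pr x M (p i)) i ≤ ℓ.L (stp x p i) := by
  have h1 := congrFun (pr_rotp x M p) i
  change dt ℓ Rb (pr x M (p i)) (rotp (sg x M) (fun i => pr x M (p i)) i) ≤ _
  rw [← h1, stp_eq]
  exact dt_pr_le ℓ Rb _ _

end Space

theorem isLength_len {G : Type u} [Group G] {K : ℕ} (ℓ : Len G K) :
    IsLength fun g => (ℓ.L g : ℝ) :=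
  ⟨by simp [ℓ.one], fun g => by simp only [ℓ.inv], fun g h => by
    change (ℓ.L (g * h) : ℝ) ≤ ℓ.L g + ℓ.L h
    exact_mod_cast ℓ.mul g h⟩

theorem innerE_of_core (h : Core.{u}) {G : Type u} [Group G] {K : ℕ} (hK : 1 ≤ K) (ℓ : Len G K) :
    InnerE fun g => (ℓ.L g : ℝ) := by
  have hlog : 0 ≤ Real.log K := Real.log_nonneg (by exact_mod_cast hK)
  obtain ⟨Ca, h⟩ := h (1 + 8 * Real.log K) (by linarith)
  refine ⟨Ca, fun L0 δ hL0 hδ => ?_⟩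
  obtain ⟨P, hb, h1, h2, h⟩ := h L0 δ hL0 hδ
  have hR : 0 ≤ 96 * P.ρ := by linarith
  refine ⟨ℓ.ball ⌊96 * P.ρ⌋₊, fun x hx => ?_⟩
  have hx' : ¬ IsOfFinOrder x ∨ ∀ a, ⌊96 * P.ρ⌋₊ < ℓ.L (a⁻¹ * x * a) := by
    refine hx.imp id fun h3 a => not_le.1 fun h4 => ?_
    refine h3 _ ((ℓ.mem_ball _ _).2 h4) (isConj_iff.2 ⟨a⁻¹, by rw [inv_inv]⟩)
  obtain ⟨M, hM, hR1, hH⟩ := exists_M ℓ x _ hx'
  have : NeZero M := ⟨hM⟩
  obtain ⟨φ, hφ1, hφ2, hφ3⟩ := exists_functional' x M (ℓ.ball ⌊96 * P.ρ⌋₊) hR1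
  obtain ⟨K', k, h⟩ := h M (Fin (2 * (ℓ.ball ⌊96 * P.ρ⌋₊).card + 1))
  refine ⟨K', k, fun N0 => ?_⟩
  obtain ⟨j, hj, η0, η, κ, h⟩ := h N0
  set g := geo ℓ x M (96 * P.ρ) hR with hg
  obtain ⟨hn, he⟩ := h (XX x M) g (geo_ok ℓ x M hK P (by linarith) (by linarith) h1 h2 hR)
  have hl : ∀ ω : Om x M (ℓ.ball ⌊96 * P.ρ⌋₊), IsLab g (col ω) := geo_lab ℓ x M hR hH
  obtain ⟨B, hB⟩ := he.crude
  obtain ⟨ψ, ε, ⟨K0, hK0⟩, h3, h4, h5⟩ := glue x φ hφ1 hφ2 (fun c hc => actO x M _ c hc) hφ3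
    (N := 2 * j + 1) ⟨j, rfl⟩ (fun p ω => thp g P κ (fun i => pr x M (p i)) (col ω))
    (fun p ω => thp g P κ (fun i => pr x M (p i)) (col ω))
    (fun p ω => hn.adm _ _ _ (hl ω)) (fun p ω => hn.adm _ _ _ (hl ω))
    (fun p ω i => hn.face _ (fun i => pr x M (p i)) _ i (hl ω))
    (fun p ω => by
      rw [pr_rotp]
      exact hn.rot _ _ _ (hl ω))
    (fun p ω => by
      rw [pr_rotp]
      exact hn.rot _ _ _ (hl ω))
    (fun c hc p ω => hn.iso _ (fun i => pr x M (p i)) _ _ (act M c hc) (hl ω) (hl _)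
      (dt_act ℓ _ hc) (act_sg hc) (col_actO ω hc))
    (fun p ω => by
      obtain ⟨T, hT⟩ := hn.loc _ fun i => pr x M (p i)
      exact (eventually_col_eq T ω).mono fun ω' h => hT _ _ (hl ω) (hl ω') h)
    B (fun p ω => hB _ _ (hl ω))
    (fun p => K' * ((j : ℝ) + 2) ^ k *
      (if ∑ i, ell (fun g => (ℓ.L g : ℝ)) (stp x p i) ≤ (2 * (j : ℝ) + 3) * L0 then δ else Ca) ^
        (j + 1) * ∏ i, ell (fun g => (ℓ.L g : ℝ)) (stp x p i))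
    (fun p ω => he.main _ _ _ (hl ω) (fun i => one_le_ell _ _)
      fun i => (len_le ℓ x M hR p i).trans (le_ell (fun g => (ℓ.L g : ℝ)) _))
  refine ⟨j + 1, by omega, ψ, ε, subExp_of_bdd (isLength_len ℓ) x K0 hK0, h3,
    cycAnti_iff.2 h4, fun p => (h5 p).trans (le_of_eq ?_)⟩
  have e1 : ((j + 1 : ℕ) : ℝ) + 1 = j + 2 := by
    push_cast
    ring
  have e2 : 2 * ((j + 1 : ℕ) : ℝ) + 1 = 2 * j + 3 := by
    push_cast
    ring
  rw [e1, e2]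
  rfl

/-- The conjecture follows from the estimates. -/
theorem bass_of_core (h : Core.{u}) (G : Type u) [Group G] : L1Bass G := by
  refine bass_allE (fun G _ S hS => ?_) G
  obtain ⟨S', _, h1, h2, h3⟩ := exists_gen S hS
  obtain ⟨ℓ, _⟩ := exists_len S' h1 h2 h3
  exact ⟨_, isLength_len ℓ, innerE_of_core h (Finset.card_pos.2 ⟨1, h1⟩) ℓ⟩

end Vale.Agent.P184Z.Out
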