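import Vale.Agent.P184Z.Out.Eps
import Vale.Agent.P184Z.CWa
import Vale.Agent.P184Z.CWb

/-!
# From families of connection forms to cyclic cochains
-/

noncomputable section

open Filter Topology MeasureTheory

namespace Vale.Agent.P184Z.Out

open Vale.Agent.P184 Vale.Agent.P184.H38

universe u

theorem rotp_eq_shf {G : Type*} [Group G] (x : G) {N : ℕ} (p : Fin (N + 1) → G) :
    rotp (fun a => x * a) p = Vale.Agent.P184.shf x p := by
  funext i
  refine Fin.lastCases ?_ (fun k => ?_) i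
  · rw [shf_last, rotp, Fin.snoc_last]
  · rw [shf_castSucc, rotp, Fin.snoc_castSucc]
    rfl

theorem crude_mono {N : ℕ} {θ : Form (N + 1)} {B B' : ℝ} (h : Crude θ B) (hB : B ≤ B') :
    Crude θ B' := fun t ht =>
  ⟨fun i => ((h t ht).1 i).trans hB, fun i j => ((h t ht).2 i j).trans hB⟩

section State

variable {Ω : Type*} [TopologicalSpace Ω] [CompactSpace Ω]

/-- A real continuous function as a complex one. -/
def cx (f : Ω → ℝ) (hf : Continuous f) : C(Ω, ℂ) :=
  ⟨fun ω => (f ω : ℂ), Complex.continuous_ofReal.comp hf⟩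

theorem abs_state_le (φ : C(Ω, ℂ) →L[ℂ] ℂ) (hφ : ∀ f, ‖φ f‖ ≤ ‖f‖) (f : Ω → ℝ)
    (hf : Continuous f) {B : ℝ} (hB : 0 ≤ B) (h : ∀ ω, |f ω| ≤ B) : |(φ (cx f hf)).re| ≤ B := by
  refine (Complex.abs_re_le_norm _).trans ((hφ _).trans ?_)
  refine (ContinuousMap.norm_le _ hB).2 fun ω => ?_
  change ‖(f ω : ℂ)‖ ≤ B
  rw [Complex.norm_real, Real.norm_eq_abs]
  exact h ω

omit [CompactSpace Ω] in
theorem nonempty_of_state (φ : C(Ω, ℂ) →L[ℂ] ℂ) (h1 : φ 1 = 1) : Nonempty Ω := by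
  by_contra h
  rw [not_nonempty_iff] at h
  have h2 : (1 : C(Ω, ℂ)) = 0 := by
    ext ω
    exact h.elim ω
  rw [h2, map_zero] at h1
  exact zero_ne_one h1

end State

/-- Families of connection forms give cyclic cochains. -/
theorem glue {G : Type*} [Group G] (x : G) {Ω : Type*} [TopologicalSpace Ω] [CompactSpace Ω]
    (φ : C(Ω, ℂ) →L[ℂ] ℂ) (h1 : φ 1 = 1) (hφ : ∀ f, ‖φ f‖ ≤ ‖f‖)
    (a : ∀ c : G, c * x = x * c → C(Ω, Ω)) (ha : ∀ c hc f, φ (f.comp (a c hc)) = φ f)
    {N : ℕ} (hN : Odd N) (θa : (Fin (N + 1) → G) → Ω → Form (N + 1))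
    (θb : (Fin (N + 2) → G) → Ω → Form (N + 2))
    (adma : ∀ p ω, Adm (θa p ω)) (admb : ∀ p ω, Adm (θb p ω))
    (face : ∀ p ω i, Face i (θb p ω) (θa (p ∘ i.succ.succAbove) ω))
    (rota : ∀ p ω, Rot (θa p ω) (θa (rotp (fun g => x * g) p) ω))
    (rotb : ∀ p ω, Rot (θb p ω) (θb (rotp (fun g => x * g) p) ω))
    (inv : ∀ c hc p ω, θa (fun i => c * p i) (a c hc ω) = θa p ω)
    (loc : ∀ p ω, ∀ᶠ ω' in 𝓝 ω, θa p ω' = θa p ω)
    (B : ℝ) (crude : ∀ p ω, Crude (θa p ω) B) (Bd : (Fin (N + 2) → G) → ℝ)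
    (bound : ∀ p ω, ∀ t ∈ simplex (N + 1), |wk (cur (θb p ω) (sl t)) (List.ofFn ev)| ≤ Bd p) :
    ∃ (ψ : (Fin (N + 1) → G) → ℝ) (ε : Fin (N + 2) → ℝ), (∃ K, ∀ p, |ψ p| ≤ K) ∧ CInv x ψ ∧
      (∀ p, ψ (Vale.Agent.P184.shf x p) = - ψ p) ∧
      ∀ p : Fin (N + 2) → G, |1 - ∑ j, ε j * ψ fun i => p (j.succAbove i)| ≤ Bd p := by
  obtain ⟨ε, hε⟩ := top_sub N hN
  obtain ⟨K, hK⟩ := tint_bound N (max B 2)
  obtain ⟨ω0⟩ := nonempty_of_state φ h1
  let f : (Fin (N + 1) → G) → Ω → ℝ := fun p ω => tint (thK N) (θa p ω)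
  have hf : ∀ p, Continuous (f p) := fun p => continuous_iff_continuousAt.2 fun ω =>
    (continuousAt_const (y := f p ω)).congr ((loc p ω).mono fun ω' h => by
      change tint (thK N) (θa p ω) = tint (thK N) (θa p ω')
      rw [h])
  have hfK : ∀ p ω, |f p ω| ≤ K := fun p ω =>
    hK _ _ (crude_mono thK_crude (le_max_right _ _)) (crude_mono (crude p ω) (le_max_left _ _))
  have hK0 : 0 ≤ K := (abs_nonneg _).trans (hfK (fun _ => 1) ω0)
  set T : ℝ := top (thK (N + 1)) with hT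
  have hV := volume_simplex_pos (N + 1)
  have hTV : |T| = (volume (simplex (N + 1))).toReal := top_thK hN.add_one
  have hT0 : T ≠ 0 := by
    intro h
    rw [h, abs_zero] at hTV
    exact hV.ne hTV
  refine ⟨fun p => (φ (cx (f p) (hf p))).re, fun j => -(ε j / T),
    ⟨K, fun p => abs_state_le φ hφ _ _ hK0 (hfK p)⟩, ?_, ?_, ?_⟩
  · intro c hc p
    have h2 : (cx (f (tra c p)) (hf _)).comp (a c hc.eq) = cx (f p) (hf p) := by
      ext ω
      change ((tint (thK N) (θa (fun i => c * p i) (a c hc.eq ω)) : ℝ) : ℂ) =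
        (tint (thK N) (θa p ω) : ℝ)
      rw [inv]
    change (φ (cx (f (tra c p)) (hf _))).re = (φ (cx (f p) (hf p))).re
    rw [← h2, ha]
  · intro p
    have h2 : cx (f (Vale.Agent.P184.shf x p)) (hf _) = - cx (f p) (hf p) := by
      ext ω
      change ((tint (thK N) (θa (Vale.Agent.P184.shf x p) ω) : ℝ) : ℂ) =
        - (tint (thK N) (θa p ω) : ℝ)
      rw [← rotp_eq_shf, tint_rot hN thK_adm (adma p ω) thK_adm (adma _ ω) thK_rot (rota p ω)]
      push_cast
      rfl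
    change (φ (cx (f (Vale.Agent.P184.shf x p)) (hf _))).re = - (φ (cx (f p) (hf p))).re
    rw [h2, map_neg, Complex.neg_re]
  · intro p
    have h2 : ∀ ω, top (θb p ω) - T = ∑ j, ε j * f (fun i => p (j.succAbove i)) ω := by
      intro ω
      refine hε (thK (N + 1)) (θb p ω) (fun _ => thK N)
        (fun j => θa (fun i => p (j.succAbove i)) ω) thK_adm.smooth (admb p ω).smooth
        (face0_of_rot thK_rot (thK_face _)) ?_ (fun i => thK_face i) (fun i => face p ω i)
      have h3 := face (rotp (fun g => x * g) p) ω (Fin.last N)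
      rw [succAbove_last_rotp] at h3
      exact face0_of_rot (rotb p ω) h3
    let g : Ω → ℝ := fun ω => 1 - ∑ j, -(ε j / T) * f (fun i => p (j.succAbove i)) ω
    have hg : Continuous g :=
      continuous_const.sub (continuous_finsetSum _ fun j _ => continuous_const.mul (hf _))
    have h4 : ∀ ω, g ω = top (θb p ω) / T := by
      intro ω
      have h5 : ∑ j, -(ε j / T) * f (fun i => p (j.succAbove i)) ω =
          -((∑ j, ε j * f (fun i => p (j.succAbove i)) ω) / T) := by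
        rw [Finset.sum_div, ← Finset.sum_neg_distrib]
        exact Finset.sum_congr rfl fun j _ => by ring
      change 1 - _ = _
      rw [h5, ← h2]
      field_simp
      ring
    have h6 : ∀ ω, |g ω| ≤ Bd p := by
      intro ω
      rw [h4, abs_div, hTV, div_le_iff₀ hV]
      exact top_bound _ _ (bound p ω)
    have h7 : cx g hg = 1 - ∑ j, ((-(ε j / T) : ℝ) : ℂ) •
        cx (f fun i => p (j.succAbove i)) (hf _) := by
      ext ω
      rw [ContinuousMap.sub_apply, ContinuousMap.one_apply, ContinuousMap.coe_sum,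
        Finset.sum_apply]
      change ((1 - ∑ j, -(ε j / T) * f (fun i => p (j.succAbove i)) ω : ℝ) : ℂ) = _
      push_cast
      rfl
    have h8 := abs_state_le φ hφ g hg ((abs_nonneg _).trans (h6 ω0)) h6
    rw [h7, map_sub, h1, map_sum, Complex.sub_re, Complex.one_re, Complex.re_sum] at h8
    refine le_of_eq_of_le ?_ h8
    congr 2
    refine Finset.sum_congr rfl fun j _ => ?_
    rw [map_smul, smul_eq_mul, Complex.re_ofReal_mul]

end Vale.Agent.P184Z.Out
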