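import Vale.Agent.P184.Bdl.B3

/-!
# The outer part of the proof: from approximate cyclic primitives of `1` to the conjecture
-/

noncomputable section

open Filter Topology

namespace Vale.Agent.P184Z.Out

open Vale.Agent.P184

universe u

set_option linter.unusedSectionVars false

section Defs

variable {G : Type*} [Group G]

/-- The length of a step, at least `1`. -/
def ell (L : G → ℝ) (g : G) : ℝ := max 1 (L g)

/-- At `x` there are, in arbitrarily large degrees `2 * n`, invariant cyclic cochains `ψ` whose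
coboundary is close to `1`: the error is of size `δ ^ n` on the loops with total length at most
`(2 * n + 1) * L0`, and of size `C ^ n` on the other loops. -/
def Appr (L : G → ℝ) (C L0 δ : ℝ) (x : G) : Prop :=
  ∃ (K : ℝ) (k : ℕ), ∀ N : ℕ, ∃ n : ℕ, N ≤ n ∧ ∃ ψ : (Fin (2 * n) → G) → ℝ,
    SubExp x L ψ ∧ CInv x ψ ∧ CycAnti x ψ ∧ ∀ p : Fin (2 * n + 1) → G,
      |1 - DData.cob ψ p| ≤ K * ((n : ℝ) + 1) ^ k *
        (if ∑ i, ell L (stp x p i) ≤ (2 * (n : ℝ) + 1) * L0 then δ else C) ^ n *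
        ∏ i, ell L (stp x p i)

/-- The input of the outer part: `Appr` holds outside of finitely many torsion classes. -/
def Inner (L : G → ℝ) : Prop :=
  ∃ C : ℝ, ∀ L0 δ : ℝ, 1 ≤ L0 → 0 < δ → ∃ B : Finset G, ∀ x : G,
    (¬ IsOfFinOrder x ∨ ∀ y ∈ B, ¬ IsConj x y) → Appr L C L0 δ x

theorem one_le_ell (L : G → ℝ) (g : G) : 1 ≤ ell L g := le_max_left _ _

theorem le_ell (L : G → ℝ) (g : G) : L g ≤ ell L g := le_max_right _ _

theorem ell_pos (L : G → ℝ) (g : G) : 0 < ell L g := lt_of_lt_of_le one_pos (one_le_ell L g)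

theorem ell_le {L : G → ℝ} (hL : IsLength L) (g : G) : ell L g ≤ 1 + L g :=
  max_le (le_add_of_nonneg_right (hL.nonneg g)) (le_add_of_nonneg_left zero_le_one)

/-- Bounded functions have subexponential growth. -/
theorem subExp_of_bdd {L : G → ℝ} (hL : IsLength L) (x : G) {n : ℕ} {ψ : (Fin n → G) → ℝ}
    (M : ℝ) (h : ∀ p, |ψ p| ≤ M) : SubExp x L ψ := by
  intro ε hε
  refine ⟨|M|, fun p => (h p).trans ((le_abs_self M).trans ?_)⟩
  exact le_mul_of_one_le_right (abs_nonneg M)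
    (Real.one_le_exp (mul_nonneg hε.le (siz_nonneg hL p)))

end Defs

theorem hasSum_pi {G : Type*} {A : G → ℝ} (h0 : ∀ g, 0 ≤ A g) (hA : Summable A) (n : ℕ) :
    HasSum (fun g : Fin n → G => ∏ i, A (g i)) ((∑' g, A g) ^ n) := by
  induction n with
  | zero => simp
  | succ n ih =>
    have h1 := hA.mul_of_nonneg ih.summable h0 (fun g => Finset.prod_nonneg fun i _ => h0 _)
    have h2 := hA.hasSum.mul ih h1
    rw [← (Fin.consEquiv (fun _ : Fin (n + 1) => G)).hasSum_iff, pow_succ']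
    have h3 : ((fun g : Fin (n + 1) → G => ∏ i, A (g i)) ∘
        (Fin.consEquiv (fun _ : Fin (n + 1) => G))) = fun x => A x.1 * ∏ i, A (x.2 i) := by
      funext p
      simp only [Fin.prod_univ_succ, Fin.consEquiv, Equiv.coe_fn_mk, Function.comp_apply,
        Fin.cons_zero, Fin.cons_succ]
    rw [h3]
    exact h2

section Pair

variable {G : Type*} [Group G] {D : Type*} [NormedRing D] [NormedAlgebra ℂ D] [CompleteSpace D]
  {A : DData G D}

theorem good_cob {m : ℕ} {F : (Fin (m + 1) → G) → ℝ} (hF : A.Good F) :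
    A.Good (DData.cob F) := by
  unfold DData.cob
  exact DData.Good.sum (A := A) Finset.univ (F := fun (j : Fin (m + 2)) (p : Fin (m + 2) → G) =>
    (-1) ^ (j : ℕ) * F fun i => p (j.succAbove i)) fun j => (hF.comp j.succAbove).smul _

theorem pr_anti {m : ℕ} {ψ : (Fin (m + 1) → G) → ℝ} (hψ : A.Good ψ)
    (h1 : ∀ p, ψ (shf A.x p) = - ψ p) : A.pr ψ = 0 := by
  have h4 := DData.pr_shf (A := A) hψ.inv
  have h5 : (fun p => ψ (shf A.x p)) = fun p => (-1) * ψ p := by
    funext p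
    rw [h1]
    ring
  rw [h5, DData.pr_smul] at h4
  push_cast at h4
  have h6 : (2 : ℂ) * A.pr ψ = 0 := by linear_combination -h4
  exact (mul_eq_zero.mp h6).resolve_left two_ne_zero

/-- The trace is the pairing with `1 - cob ψ`. -/
theorem pr_one_sub {m : ℕ} (hm : Odd m) {ψ : (Fin (m + 1) → G) → ℝ} (hψ : A.Good ψ)
    (h1 : ∀ p, ψ (shf A.x p) = - ψ p) :
    A.pr (fun _ : Fin 1 → G => 1) = A.pr fun p : Fin (m + 2) → G => 1 - DData.cob ψ p := by
  have h2 : (fun p : Fin (m + 2) → G => 1 - DData.cob ψ p) =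
      fun p => (fun _ => (1 : ℝ)) p + (fun p => (-1) * DData.cob ψ p) p := by
    funext p
    ring
  rw [h2, DData.pr_add (DData.Good.const 1) ((good_cob hψ).smul (-1)), DData.pr_smul,
    DData.pr_cob hm hψ, pr_anti hψ h1, mul_zero, add_zero]
  exact (DData.pr_one_eq (m + 1)).symm

omit [CompleteSpace D] in
/-- Bound of the pairing. -/
theorem norm_pr_le {m : ℕ} {F : (Fin (m + 1) → G) → ℝ} {w : G → ℝ} (hw : ∀ g, 0 ≤ w g)
    (hs : Summable fun g => ‖A.E g‖ * w g) {c : ℝ} (hc : 0 ≤ c)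
    (hF : ∀ p, |F p| ≤ c * ∏ i, w (stp A.x p i)) :
    ‖A.pr F‖ ≤ ‖A.tr‖ * c * (∑' g, ‖A.E g‖ * w g) ^ (m + 1) := by
  set B : G → ℝ := fun g => ‖A.E g‖ * w g with hB
  have hB0 : ∀ g, 0 ≤ B g := fun g => mul_nonneg (norm_nonneg _) (hw g)
  have h1 := hasSum_pi hB0 hs (m + 1)
  have h2 : Summable fun a : Orb A.x m => ∏ i, B (stp A.x (Orb.rep A.x a) i) :=
    h1.summable.comp_injective (stp_injective A.x)
  have h3 : ∑' a : Orb A.x m, ∏ i, B (stp A.x (Orb.rep A.x a) i) ≤ (∑' g, B g) ^ (m + 1) := by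
    rw [← h1.tsum_eq]
    exact h2.tsum_le_tsum_of_inj _ (stp_injective A.x)
      (fun g _ => Finset.prod_nonneg fun i _ => hB0 _) (fun a => le_rfl) h1.summable
  have h4 : ∀ a : Orb A.x m, ‖(F (Orb.rep A.x a) : ℂ) * wgt A.x A.tr A.E (Orb.rep A.x a)‖ ≤
      ‖A.tr‖ * c * ∏ i, B (stp A.x (Orb.rep A.x a) i) := by
    intro a
    set p := Orb.rep A.x a with hp
    rw [norm_mul, Complex.norm_real, Real.norm_eq_abs]
    have h5 := norm_wgt_le A.x A.tr A.E p
    calc |F p| * ‖wgt A.x A.tr A.E p‖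
        ≤ (c * ∏ i, w (stp A.x p i)) * (‖A.tr‖ * ∏ i, ‖A.E (stp A.x p i)‖) :=
          mul_le_mul (hF p) h5 (norm_nonneg _)
            (mul_nonneg hc (Finset.prod_nonneg fun _ _ => hw _))
      _ = ‖A.tr‖ * c * ∏ i, B (stp A.x p i) := by
          simp only [hB, Finset.prod_mul_distrib]
          ring
  unfold DData.pr pair
  refine (tsum_of_norm_bounded (h2.mul_left (‖A.tr‖ * c)).hasSum h4).trans ?_
  rw [tsum_mul_left]
  exact mul_le_mul_of_nonneg_left h3 (mul_nonneg (norm_nonneg _) hc)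

end Pair

section Asym

variable {G : Type*} [Group G]

/-- The weight of a step. -/
def wt (L : G → ℝ) (ε : ℝ) (g : G) : ℝ := ell L g * Real.exp (ε / 2 * ell L g)

theorem wt_nonneg (L : G → ℝ) (ε : ℝ) (g : G) : 0 ≤ wt L ε g :=
  mul_nonneg (ell_pos L g).le (Real.exp_pos _).le

theorem wt_le {L : G → ℝ} (hL : IsLength L) {ε : ℝ} (hε : 0 < ε) (g : G) :
    wt L ε g ≤ 2 / ε * Real.exp ε * Real.exp (ε * L g) := by
  have h1 : ε / 2 * ell L g ≤ Real.exp (ε / 2 * ell L g) := by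
    have := Real.add_one_le_exp (ε / 2 * ell L g)
    linarith
  have h2 : ell L g ≤ 2 / ε * Real.exp (ε / 2 * ell L g) := by
    have h3 : ell L g = 2 / ε * (ε / 2 * ell L g) := by field_simp
    calc ell L g = 2 / ε * (ε / 2 * ell L g) := h3
      _ ≤ _ := mul_le_mul_of_nonneg_left h1 (by positivity)
  have h4 : Real.exp (ε / 2 * ell L g) * Real.exp (ε / 2 * ell L g) ≤
      Real.exp ε * Real.exp (ε * L g) := by
    rw [← Real.exp_add, ← Real.exp_add, Real.exp_le_exp]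
    have := mul_le_mul_of_nonneg_left (ell_le hL g) hε.le
    linarith
  calc wt L ε g ≤ 2 / ε * Real.exp (ε / 2 * ell L g) * Real.exp (ε / 2 * ell L g) :=
        mul_le_mul_of_nonneg_right h2 (Real.exp_pos _).le
    _ = 2 / ε * (Real.exp (ε / 2 * ell L g) * Real.exp (ε / 2 * ell L g)) := by ring
    _ ≤ 2 / ε * (Real.exp ε * Real.exp (ε * L g)) :=
        mul_le_mul_of_nonneg_left h4 (by positivity)
    _ = _ := by ring

/-- The two cases of the bound in one formula. -/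
theorem split_le (L : G → ℝ) {ε : ℝ} (hε : 0 < ε) (C L0 δ : ℝ) (hL0 : 0 ≤ L0) (hδ : 0 ≤ δ)
    (hC : |C| * Real.exp (-(ε * L0)) ≤ δ) (n : ℕ) (g : Fin (2 * n + 1) → G) :
    |(if ∑ i, ell L (g i) ≤ (2 * (n : ℝ) + 1) * L0 then δ else C) ^ n * ∏ i, ell L (g i)| ≤
      δ ^ n * ∏ i, wt L ε (g i) := by
  have hP : 0 ≤ ∏ i, ell L (g i) := Finset.prod_nonneg fun i _ => (ell_pos L _).le
  have hW : ∏ i, wt L ε (g i) = (∏ i, ell L (g i)) * Real.exp (ε / 2 * ∑ i, ell L (g i)) := by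
    simp only [wt, Finset.prod_mul_distrib]
    rw [← Real.exp_sum, ← Finset.mul_sum]
  have hS : 0 ≤ ∑ i, ell L (g i) := Finset.sum_nonneg fun i _ => (ell_pos L _).le
  rw [abs_mul, abs_of_nonneg hP, abs_pow, hW]
  split_ifs with h
  · rw [abs_of_nonneg hδ]
    refine mul_le_mul_of_nonneg_left ?_ (pow_nonneg hδ n)
    exact le_mul_of_one_le_right hP (Real.one_le_exp (by positivity))
  · have h1 : (2 * (n : ℝ) + 1) * L0 ≤ ∑ i, ell L (g i) := (not_le.1 h).le
    have h2 : |C| ≤ δ * Real.exp (ε * L0) := by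
      have h3 : |C| = |C| * Real.exp (-(ε * L0)) * Real.exp (ε * L0) := by
        rw [mul_assoc, ← Real.exp_add, neg_add_cancel, Real.exp_zero, mul_one]
      rw [h3]
      exact mul_le_mul_of_nonneg_right hC (Real.exp_pos _).le
    have h4 : |C| ^ n ≤ δ ^ n * Real.exp (ε / 2 * ∑ i, ell L (g i)) := by
      refine (pow_le_pow_left₀ (abs_nonneg C) h2 n).trans ?_
      rw [mul_pow, ← Real.exp_nat_mul]
      refine mul_le_mul_of_nonneg_left (Real.exp_le_exp.2 ?_) (pow_nonneg hδ n)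
      have h5 := mul_le_mul_of_nonneg_left h1 (half_pos hε).le
      have h6 : 0 ≤ ε / 2 * L0 := by positivity
      linarith
    calc |C| ^ n * ∏ i, ell L (g i)
        ≤ δ ^ n * Real.exp (ε / 2 * ∑ i, ell L (g i)) * ∏ i, ell L (g i) :=
          mul_le_mul_of_nonneg_right h4 hP
      _ = _ := by ring

theorem tendsto_poly (K : ℝ) (k : ℕ) :
    Tendsto (fun n : ℕ => K * ((n : ℝ) + 1) ^ k * (1 / 2) ^ n) atTop (𝓝 0) := by
  have h1 := tendsto_pow_const_mul_const_pow_of_abs_lt_one k (r := (1 / 2 : ℝ))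
    (by rw [abs_of_pos] <;> norm_num)
  have h2 := (h1.comp (tendsto_add_atTop_nat 1)).const_mul (K * 2)
  rw [mul_zero] at h2
  refine h2.congr fun n => ?_
  simp only [Function.comp_apply]
  push_cast
  ring

variable {D : Type*} [NormedRing D] [NormedAlgebra ℂ D] [CompleteSpace D]

theorem summable_wt {L : G → ℝ} (hL : IsLength L) {ε : ℝ} (hε : 0 < ε) {E : G → D}
    (hE : Summable fun g => ‖E g‖ * Real.exp (ε * L g)) :
    Summable fun g => ‖E g‖ * wt L ε g := by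
  refine Summable.of_nonneg_of_le (fun g => mul_nonneg (norm_nonneg _) (wt_nonneg L ε g))
    (fun g => ?_) (hE.mul_left (2 / ε * Real.exp ε))
  calc ‖E g‖ * wt L ε g ≤ ‖E g‖ * (2 / ε * Real.exp ε * Real.exp (ε * L g)) :=
        mul_le_mul_of_nonneg_left (wt_le hL hε g) (norm_nonneg _)
    _ = _ := by ring

/-- The trace vanishes if the constants are well chosen. -/
theorem pr_eq_zero (A : DData G D) (C L0 δ : ℝ) (hL0 : 0 ≤ L0) (hδ : 0 ≤ δ)
    (hC : |C| * Real.exp (-(A.eps * L0)) ≤ δ)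
    (hδA : δ * (∑' g, ‖A.E g‖ * wt A.L A.eps g) ^ 2 ≤ 1 / 2) (h : Appr A.L C L0 δ A.x) :
    A.pr (fun _ : Fin 1 → G => 1) = 0 := by
  obtain ⟨K, k, h⟩ := h
  set W : ℝ := ∑' g, ‖A.E g‖ * wt A.L A.eps g with hW
  have hW0 : 0 ≤ W := tsum_nonneg fun g => mul_nonneg (norm_nonneg _) (wt_nonneg _ _ g)
  have hs := summable_wt A.hL A.heps A.hdec
  have key : ∀ N : ℕ, ∃ n : ℕ, N ≤ n ∧ ‖A.pr (fun _ : Fin 1 → G => 1)‖ ≤
      (‖A.tr‖ * |K| * W) * ((n : ℝ) + 1) ^ k * (1 / 2) ^ n := by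
    intro N
    obtain ⟨n, hn, ψ, h1, h2, h3, h4⟩ := h (N + 1)
    obtain ⟨j, rfl⟩ : ∃ j, n = j + 1 := ⟨n - 1, by omega⟩
    refine ⟨j + 1, by omega, ?_⟩
    have h5 := pr_one_sub (A := A) (m := 2 * j + 1) ⟨j, rfl⟩ (ψ := ψ) ⟨h2, h1⟩ (cycAnti_iff.1 h3)
    have hc : 0 ≤ |K| * (((j + 1 : ℕ) : ℝ) + 1) ^ k * δ ^ (j + 1) := by positivity
    have h6 := norm_pr_le (A := A) (m := 2 * (j + 1))
      (F := fun p : Fin (2 * (j + 1) + 1) → G => 1 - DData.cob ψ p)
      (wt_nonneg A.L A.eps) hs hc (fun p => by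
        refine (h4 p).trans ((le_abs_self _).trans ?_)
        rw [mul_assoc (K * _), abs_mul, abs_mul, mul_assoc (|K| * _),
          abs_of_nonneg (a := (((j + 1 : ℕ) : ℝ) + 1) ^ k) (by positivity)]
        exact mul_le_mul_of_nonneg_left
          (split_le A.L A.heps C L0 δ hL0 hδ hC (j + 1) (stp A.x p)) (by positivity))
    rw [h5]
    refine h6.trans ?_
    have h7 : δ ^ (j + 1) * W ^ (2 * (j + 1)) ≤ (1 / 2) ^ (j + 1) := by
      rw [pow_mul, ← mul_pow]
      exact pow_le_pow_left₀ (by positivity) hδA _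
    calc ‖A.tr‖ * (|K| * (((j + 1 : ℕ) : ℝ) + 1) ^ k * δ ^ (j + 1)) * W ^ (2 * (j + 1) + 1)
        = ‖A.tr‖ * |K| * W * (((j + 1 : ℕ) : ℝ) + 1) ^ k *
          (δ ^ (j + 1) * W ^ (2 * (j + 1))) := by ring
      _ ≤ _ := mul_le_mul_of_nonneg_left h7 (by positivity)
  have ht := tendsto_poly (‖A.tr‖ * |K| * W) k
  rw [← norm_le_zero_iff]
  refine le_of_forall_pos_le_add fun η hη => ?_
  obtain ⟨N, hN⟩ := eventually_atTop.1 (ht.eventually (gt_mem_nhds hη))
  obtain ⟨n, hn, h1⟩ := key N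
  rw [zero_add]
  exact h1.trans (hN n hn).le

end Asym

section Final

attribute [local instance] Matrix.linftyOpNormedRing Matrix.linftyOpNormedAlgebra

theorem exists_L0 (C : ℝ) {ε δ : ℝ} (hε : 0 < ε) (hδ : 0 < δ) :
    ∃ L0 : ℝ, 1 ≤ L0 ∧ |C| * Real.exp (-(ε * L0)) ≤ δ := by
  refine ⟨1 + |C| / (δ * ε), le_add_of_nonneg_right (by positivity), ?_⟩
  have h1 := Real.add_one_le_exp (ε * (1 + |C| / (δ * ε)))
  have h2 : δ * (ε * (1 + |C| / (δ * ε))) = δ * ε + |C| := by field_simp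
  have h3 : |C| ≤ δ * Real.exp (ε * (1 + |C| / (δ * ε))) := by
    have h4 := mul_le_mul_of_nonneg_left h1 hδ.le
    have h5 : 0 < δ * ε := mul_pos hδ hε
    nlinarith
  rw [Real.exp_neg, ← div_eq_mul_inv, div_le_iff₀ (Real.exp_pos _)]
  exact h3

/-- The conjecture for one group. -/
theorem bass_of_inner {G : Type*} [Group G] {L : G → ℝ} (hL : IsLength L) (h : Inner L) :
    L1Bass G := by
  classical
  intro q e he
  obtain ⟨ε, hε, f, hf, hdec, htau⟩ := exists_decay L hL.nonneg hL.2.2 e he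
  obtain ⟨C, h⟩ := h
  set W : ℝ := ∑' g, ‖toFn f g‖ * wt L ε g with hW
  set δ : ℝ := 1 / (2 * (W ^ 2 + 1)) with hδ
  have hδ0 : 0 < δ := by positivity
  have hδW : δ * W ^ 2 ≤ 1 / 2 := by
    rw [hδ, div_mul_eq_mul_div, div_le_div_iff₀ (by positivity) (by positivity)]
    nlinarith [sq_nonneg W]
  obtain ⟨L0, hL0, hC⟩ := exists_L0 C hε hδ0
  obtain ⟨B, hB⟩ := h L0 δ hL0 hδ0
  refine ⟨(B.filter fun y => IsOfFinOrder y).image ConjClasses.mk, ?_, ?_⟩
  · intro c hc g hg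
    obtain ⟨y, hy, rfl⟩ := Finset.mem_image.1 hc
    have h1 : ConjClasses.mk g = ConjClasses.mk y := ConjClasses.mem_carrier_iff_mk_eq.mp hg
    exact (ConjClasses.mk_eq_mk_iff_isConj.mp h1).symm.isOfFinOrder (Finset.mem_filter.1 hy).2
  · intro c hc
    obtain ⟨x, rfl⟩ := ConjClasses.mk_surjective c
    have hx : ¬ IsOfFinOrder x ∨ ∀ y ∈ B, ¬ IsConj x y := by
      by_cases h1 : IsOfFinOrder x
      · refine Or.inr fun y hy h2 => hc ?_
        refine Finset.mem_image.2 ⟨y, Finset.mem_filter.2 ⟨hy, h2.isOfFinOrder h1⟩, ?_⟩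
        exact (ConjClasses.mk_eq_mk_iff_isConj.mpr h2).symm
      · exact Or.inl h1
    let A : DData G (Matrix (Fin q) (Fin q) ℂ) :=
      { x := x
        tr := mtr q
        E := toFn f
        L := L
        eps := ε
        htr := mtr_comm q
        hE := toFn_conv hf
        hL := hL
        heps := hε
        hdec := hdec }
    have h8 : A.pr (fun _ : Fin 1 → G => 1) = 0 :=
      pr_eq_zero A C L0 δ (by linarith) hδ0.le hC hδW (hB x hx)
    rw [DData.pr_one] at h8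
    rw [← htau]
    have hset : (ConjClasses.mk x).carrier = {g | IsConj x g} := by
      ext g
      rw [ConjClasses.mem_carrier_iff_mk_eq, ConjClasses.mk_eq_mk_iff_isConj]
      exact ⟨fun h => h.symm, fun h => IsConj.symm h⟩
    unfold tau
    rw [hset]
    exact h8

/-- The conjecture for all groups follows from the inner estimate for finitely generated
groups. -/
theorem bass_all
    (h : ∀ (G : Type u) [Group G] (S : Finset G), Subgroup.closure (S : Set G) = ⊤ →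
      ∃ L : G → ℝ, IsLength L ∧ Inner L) (G : Type u) [Group G] : L1Bass G := by
  classical
  refine l1Bass_of_local.{u, u} fun S => ?_
  obtain ⟨s, hs⟩ := liftsTo_closure S
  refine ⟨Subgroup.closure (S : Set G), inferInstance, _, s, hs, ?_⟩
  have hfg : Group.FG (Subgroup.closure (S : Set G)) := inferInstance
  obtain ⟨T, hT⟩ := Group.fg_def.1 hfg
  obtain ⟨L, hL, hI⟩ := h _ T hT
  exact bass_of_inner hL hI

end Final

end Vale.Agent.P184Z.Out
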